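import Crest.Agent.X262.Surf.Defs
import Crest.Agent.X262.Rho82.Nef

/-!
# Row 262, SURF: the economical base (`EconStmt`)

`Θ ≡ m θ`; `χ(K + j θ) = h⁰(K + j θ)` is a quadratic polynomial in `j`, so one of `K + θ`, `K + 2 θ`,
`K + 3 θ` is effective, and `m K + 6 Θ` is pseudo-effective, hence nef on a `Θ`-minimal model.
-/

set_option autoImplicit false

namespace Crest.Agent.X262.G3Num

open Crest.Agent.X277 Crest.Agent.X277.Lef Crest.Agent.X277.BD Crest.Agent.X277.BD.Br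
open Crest.Agent.X262.Surf

variable {E : Type} [Field E] [Algebra ℂ E] [Algebra.EssFiniteType ℂ E]

omit [Algebra.EssFiniteType ℂ E] in
theorem h0_nonneg (a : BD ℂ E) : 0 ≤ h0 a := Int.natCast_nonneg _

theorem h0_eq_zero {a : BD ℂ E} (h : ¬ Eff a) : h0 a = 0 := by
  rw [eff_iff_finrank, not_lt, Nat.le_zero] at h
  rw [h0, h, Nat.cast_zero]

theorem sq_pos (b : B2 E) {θ : BD ℂ E} (h1 : Nef θ) (h2 : Big θ) : 0 < bnum [θ, θ] :=
  bnum_pos (by simpa using (Module.finrank_eq_card_basis b).symm) (by simp [h1, h2])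

/-- non-vanishing: one of `K + θ`, `K + 2 θ`, `K + 3 θ` is effective -/
theorem exists_eff (hR : RRStmt) (hS : SerStmt) (hV : KVStmt) (B : PModel ℂ E) (b : B2 E)
    {θ : BD ℂ E} (hθ : θ ∈ On B) (h1 : Nef θ) (h2 : Big θ) :
    ∃ j : ℕ, j ≤ 3 ∧ Eff (kP B b + j • θ) := by
  obtain ⟨c, hc⟩ := hR E B b
  have hp := sq_pos b h1 h2
  by_contra hn
  push Not at hn
  have key : ∀ j : ℕ, 0 < j → j ≤ 3 →
      2 * c + j * bnum [kP B b, θ] + j * (j * bnum [θ, θ]) = 0 := fun j hj hj3 => by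
    have h3 := hV E B b c hc (j • θ) (nsmul_mem hθ j) (h1.nsmul j) (h2.nsmul hj)
    have h4 := hS E B b c hc (kP B b + j • θ) (add_mem (kP_mem b) (nsmul_mem hθ j))
    have h5 : ¬ Eff (kP B b - (kP B b + j • θ)) := fun h => by
      have h6 := h.bnum_nonneg (l := [θ]) (by simpa using h1)
      rw [sub_add_cancel_left, bnum_neg, bnum_nsmul] at h6
      have : (0 : ℤ) < j * bnum [θ, θ] := mul_pos (by exact_mod_cast hj) hp
      omega
    rw [h0_eq_zero (hn j hj3)] at h3 h4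
    rw [h0_eq_zero h5] at h4
    have h7 : rr B b c (kP B b + j • θ) = 0 := by omega
    rw [rr, add_sub_cancel_left, bnum_add, bnum_nsmul2, bnum_nsmul, bnum_nsmul2] at h7
    omega
  have k1 := key 1 (by omega) (by omega)
  have k2 := key 2 (by omega) (by omega)
  have k3 := key 3 (by omega) (by omega)
  push_cast at k1 k2 k3
  omega

theorem econStmt (hT : ThMinStmt) (hR : RRStmt) (hS : SerStmt) (hV : KVStmt) (hU : UnimStmt) :
    EconStmt := by
  intro E _ _ _ b Θ m hm hpg hN hB hd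
  obtain ⟨B, hΘ, hB'⟩ := hT E b Θ m hN hB hd
  obtain ⟨θ, hθ, hz⟩ := hU E B b Θ m (hpg B) hΘ fun a _ => hd a
  have hz1 : Nef (Θ - m • θ) := Rho82.nef_of_numZ hz
  have hz2 : Nef (-(Θ - m • θ)) := Rho82.nef_of_numZ hz.neg
  have he : m • θ = Θ + -(Θ - m • θ) := by abel
  have h1 : Nef θ := Nef.of_nsmul hm (he ▸ hN.add hz2)
  have h2 : Big θ := Big.of_nsmul hm (he ▸ hB.add_nef hz2)
  obtain ⟨j, hj, h3⟩ := exists_eff hR hS hV B b hθ h1 h2
  refine ⟨B, hΘ, hB' m 6 (by omega) ?_⟩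
  obtain ⟨i, hi⟩ : ∃ i, i + j = 6 := ⟨6 - j, by omega⟩
  have h4 : m • kP B b + 6 • Θ = m • (kP B b + j • θ + i • θ) + 6 • (Θ - m • θ) := by
    rw [add_assoc, ← add_nsmul, add_comm j i, hi]
    module
  rw [h4]
  exact ((h3.psef.add (h1.nsmul i).psef).nsmul m).add (hz1.nsmul 6).psef

end Crest.Agent.X262.G3Num
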