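import Mathlib

/-!
# Lorentzian linear algebra for G3 (note 1838)

`B` is a symmetric real bilinear form with the Hodge index property with respect to a vector `H`
of positive square.  `nf B H u v = (H.u)(H.v)/H² - u.v` is then positive semidefinite; we prove
Cauchy–Schwarz, the triangle inequality and the "orbital graph" estimate.
-/

set_option autoImplicit false

namespace Crest.Agent.X262.G3Num

open Finset

variable {V : Type*} [AddCommGroup V] [Module ℝ V]

/-- Hodge index data: a symmetric form and a vector of positive square whose orthogonal complement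
is negative semidefinite (in the form `H² x² ≤ (H.x)²`). -/
structure HodgeIdx (B : LinearMap.BilinForm ℝ V) (H : V) : Prop where
  symm : ∀ u v, B u v = B v u
  pos : 0 < B H H
  idx : ∀ x, B H H * B x x ≤ (B H x) ^ 2

/-- The positive semidefinite form attached to Hodge index data. -/
noncomputable def nf (B : LinearMap.BilinForm ℝ V) (H u v : V) : ℝ :=
  B H u * B H v / B H H - B u v

variable {B : LinearMap.BilinForm ℝ V} {H : V}

theorem nf_add_left (u u' v : V) : nf B H (u + u') v = nf B H u v + nf B H u' v := by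
  simp only [nf, map_add, LinearMap.add_apply]; ring

theorem nf_add_right (u v v' : V) : nf B H u (v + v') = nf B H u v + nf B H u v' := by
  simp only [nf, map_add]; ring

theorem nf_sub_left (u u' v : V) : nf B H (u - u') v = nf B H u v - nf B H u' v := by
  simp only [nf, map_sub, LinearMap.sub_apply]; ring

theorem nf_sub_right (u v v' : V) : nf B H u (v - v') = nf B H u v - nf B H u v' := by
  simp only [nf, map_sub]; ring

theorem nf_smul_left (t : ℝ) (u v : V) : nf B H (t • u) v = t * nf B H u v := by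
  simp only [nf, map_smul, LinearMap.smul_apply, smul_eq_mul]; ring

theorem nf_smul_right (t : ℝ) (u v : V) : nf B H u (t • v) = t * nf B H u v := by
  simp only [nf, map_smul, smul_eq_mul]; ring

theorem nf_zero_left (v : V) : nf B H 0 v = 0 := by simp [nf]

theorem nf_sum_left {ι : Type*} (s : Finset ι) (f : ι → V) (v : V) :
    nf B H (∑ a ∈ s, f a) v = ∑ a ∈ s, nf B H (f a) v := by
  classical
  induction s using Finset.induction_on with
  | empty => simp [nf_zero_left]
  | insert a s ha ih => rw [Finset.sum_insert ha, Finset.sum_insert ha, nf_add_left, ih]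

namespace HodgeIdx

variable (h : HodgeIdx B H)
include h

theorem nf_symm (u v : V) : nf B H u v = nf B H v u := by
  simp only [nf]; rw [h.symm u v]; ring

theorem nf_nonneg (x : V) : 0 ≤ nf B H x x := by
  have h1 := h.idx x
  have h2 := h.pos
  simp only [nf]
  rw [sub_nonneg, le_div_iff₀ h2]
  nlinarith

theorem nf_H (v : V) : nf B H H v = 0 := by
  have := h.pos.ne'
  simp only [nf]; field_simp; ring

/-- Cauchy–Schwarz. -/
theorem nf_cs (u v : V) : (nf B H u v) ^ 2 ≤ nf B H u u * nf B H v v := by
  have key : ∀ t : ℝ, 0 ≤ nf B H v v * (t * t) + (2 * nf B H u v) * t + nf B H u u := by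
    intro t
    have := h.nf_nonneg (u + t • v)
    rw [nf_add_left, nf_add_right, nf_add_right, nf_smul_left, nf_smul_right, nf_smul_left,
      nf_smul_right, h.nf_symm v u] at this
    nlinarith
  have := discrim_le_zero key
  unfold discrim at this
  nlinarith

theorem nf_le_sqrt (u v : V) : nf B H u v ≤ √(nf B H u u) * √(nf B H v v) := by
  rw [← Real.sqrt_mul (h.nf_nonneg u)]
  exact Real.le_sqrt_of_sq_le (h.nf_cs u v)

theorem neg_nf_le_sqrt (u v : V) : -nf B H u v ≤ √(nf B H u u) * √(nf B H v v) := by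
  rw [← Real.sqrt_mul (h.nf_nonneg u)]
  refine Real.le_sqrt_of_sq_le ?_
  rw [neg_sq]; exact h.nf_cs u v

/-- triangle inequality for the seminorm `√(nf x x)`. -/
theorem nf_tri (u v : V) :
    √(nf B H (u + v) (u + v)) ≤ √(nf B H u u) + √(nf B H v v) := by
  refine Real.sqrt_le_iff.mpr ⟨by positivity, ?_⟩
  rw [nf_add_left, nf_add_right, nf_add_right, h.nf_symm v u, add_sq,
    Real.sq_sqrt (h.nf_nonneg u), Real.sq_sqrt (h.nf_nonneg v)]
  have := h.nf_le_sqrt u v
  linarith

/-- Along a walk whose edges have length at most `δ`, the end points are at distance at most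
`length * δ`. -/
theorem nf_walk {ι : Type*} (L : ι → V) (Γ : SimpleGraph ι) (δ : ℝ)
    (hδ : ∀ a b, Γ.Adj a b → √(nf B H (L a - L b) (L a - L b)) ≤ δ) {a b : ι}
    (p : Γ.Walk a b) : √(nf B H (L a - L b) (L a - L b)) ≤ p.length * δ := by
  induction p with
  | nil => simp [nf_zero_left]
  | @cons a c b hac p ih =>
    have h1 := h.nf_tri (L a - L c) (L c - L b)
    have h2 : L a - L c + (L c - L b) = L a - L b := by abel
    rw [h2] at h1
    have h3 := hδ a c hac
    simp only [SimpleGraph.Walk.length_cons, Nat.cast_add, Nat.cast_one]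
    linarith

/-- On a connected graph on `k` vertices all of whose edges have squared length `≤ D`, every pair
has squared distance at most `(k-1)² D`. -/
theorem nf_conn {ι : Type*} [Fintype ι] (L : ι → V) (Γ : SimpleGraph ι) (hΓ : Γ.Preconnected)
    (D : ℝ) (hD : 0 ≤ D) (hδ : ∀ a b, Γ.Adj a b → nf B H (L a - L b) (L a - L b) ≤ D) (a b : ι) :
    nf B H (L a - L b) (L a - L b) ≤ ((Fintype.card ι : ℝ) - 1) ^ 2 * D := by
  classical
  obtain ⟨p, hp⟩ := (hΓ a b).exists_isPath
  have h1 := h.nf_walk L Γ (√D) (fun a b hab => Real.sqrt_le_sqrt (hδ a b hab)) p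
  have h2 : (p.length : ℝ) ≤ (Fintype.card ι : ℝ) - 1 := by
    have := hp.length_lt
    have h3 : p.length + 1 ≤ Fintype.card ι := this
    have h4 : ((p.length + 1 : ℕ) : ℝ) ≤ (Fintype.card ι : ℝ) := by exact_mod_cast h3
    push_cast at h4; linarith
  have h3 : √(nf B H (L a - L b) (L a - L b)) ≤ ((Fintype.card ι : ℝ) - 1) * √D :=
    h1.trans (mul_le_mul_of_nonneg_right h2 (Real.sqrt_nonneg _))
  have h4 := pow_le_pow_left₀ (Real.sqrt_nonneg _) h3 2
  rwa [Real.sq_sqrt (h.nf_nonneg _), mul_pow, Real.sq_sqrt hD] at h4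

/-- If the `L a` have the same `nf`-square `E` and sum to a multiple of `H`, then some (every) edge
length `D` of a connected graph satisfies `2E ≤ (k-1)² D`. -/
theorem nf_orbital {ι : Type*} [Fintype ι] [Nonempty ι] (L : ι → V) (t : ℝ)
    (hsum : ∑ a, L a = t • H) (E : ℝ) (hE : ∀ a, nf B H (L a) (L a) = E)
    (Γ : SimpleGraph ι) (hΓ : Γ.Preconnected)
    (D : ℝ) (hD : 0 ≤ D) (hδ : ∀ a b, Γ.Adj a b → nf B H (L a - L b) (L a - L b) ≤ D) :
    2 * E ≤ ((Fintype.card ι : ℝ) - 1) ^ 2 * D := by
  classical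
  obtain ⟨b⟩ := ‹Nonempty ι›
  have h0 : ∑ a, nf B H (L a) (L b) = 0 := by
    rw [← nf_sum_left, hsum, nf_smul_left, h.nf_H, mul_zero]
  have h1 : ∑ a, nf B H (L a - L b) (L a - L b) = (Fintype.card ι : ℝ) * (2 * E) := by
    have : ∀ a, nf B H (L a - L b) (L a - L b) = 2 * E - 2 * nf B H (L a) (L b) := by
      intro a
      rw [nf_sub_left, nf_sub_right, nf_sub_right, hE, hE, h.nf_symm (L b) (L a)]; ring
    simp only [this, Finset.sum_sub_distrib, ← Finset.mul_sum, h0]
    simp [Finset.card_univ]; ring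
  have h2 : ∑ a, nf B H (L a - L b) (L a - L b)
      ≤ ∑ _a : ι, ((Fintype.card ι : ℝ) - 1) ^ 2 * D :=
    Finset.sum_le_sum fun a _ => h.nf_conn L Γ hΓ D hD hδ a b
  rw [h1, Finset.sum_const, Finset.card_univ, nsmul_eq_mul] at h2
  have hk : (0 : ℝ) < Fintype.card ι := by exact_mod_cast Fintype.card_pos
  exact le_of_mul_le_mul_left h2 hk

end HodgeIdx

/-- Higman: the orbital graph of a pair `i ≠ j` under a primitive action is connected. -/
theorem orbital_preconnected {G ι : Type*} [Group G] [MulAction G ι]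
    [MulAction.IsPreprimitive G ι] {i j : ι} (hij : i ≠ j) :
    (SimpleGraph.fromRel fun a b : ι => ∃ g : G, a = g • i ∧ b = g • j).Preconnected := by
  set Γ := SimpleGraph.fromRel fun a b : ι => ∃ g : G, a = g • i ∧ b = g • j with hΓ
  have hadj : ∀ (g : G) (a b : ι), Γ.Adj a b → Γ.Adj (g • a) (g • b) := by
    intro g a b hab
    rw [hΓ, SimpleGraph.fromRel_adj] at hab ⊢
    refine ⟨fun h => hab.1 (smul_left_cancel g h), ?_⟩
    rcases hab.2 with ⟨g', rfl, rfl⟩ | ⟨g', rfl, rfl⟩
    · exact Or.inl ⟨g * g', (mul_smul _ _ _).symm, (mul_smul _ _ _).symm⟩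
    · exact Or.inr ⟨g * g', (mul_smul _ _ _).symm, (mul_smul _ _ _).symm⟩
  have hreach : ∀ (g : G) (a b : ι), Γ.Reachable a b → Γ.Reachable (g • a) (g • b) := by
    intro g a b ⟨p⟩
    induction p with
    | nil => rfl
    | cons hac _ ih => exact (hadj g _ _ hac).reachable.trans ih
  have hblock : MulAction.IsBlock G {a | Γ.Reachable i a} := by
    rw [MulAction.isBlock_iff_smul_eq_of_nonempty]
    intro g ⟨y, ⟨x, hx, hxy⟩, hy⟩
    have hgi : Γ.Reachable i (g • i) := by
      have h1 : Γ.Reachable (g • i) (g • x) := hreach g _ _ hx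
      simp only at hxy
      rw [hxy] at h1
      exact hy.trans h1.symm
    ext z
    constructor
    · rintro ⟨w, hw, rfl⟩
      exact hgi.trans (hreach g _ _ hw)
    · intro hz
      refine ⟨g⁻¹ • z, ?_, by simp⟩
      have h1 := hreach g⁻¹ _ _ (hgi.symm.trans hz)
      simpa using h1
  have hj : Γ.Reachable i j := by
    refine SimpleGraph.Adj.reachable ?_
    rw [hΓ, SimpleGraph.fromRel_adj]
    exact ⟨hij, Or.inl ⟨1, by simp, by simp⟩⟩
  rcases MulAction.IsPreprimitive.isTrivialBlock_of_isBlock hblock with hs | hs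
  · exact absurd (hs (SimpleGraph.Reachable.refl i) hj) hij
  · intro a b
    have ha : Γ.Reachable i a := by
      have : a ∈ {a | Γ.Reachable i a} := hs ▸ Set.mem_univ a
      exact this
    have hb : Γ.Reachable i b := by
      have : b ∈ {a | Γ.Reachable i a} := hs ▸ Set.mem_univ b
      exact this
    exact ha.symm.trans hb

end Crest.Agent.X262.G3Num
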