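import Crest.Agent.X262.G3Num.Lorentz

/-!
# The numerical core of G3 (notes 1838, 1872)

`g3_num`: the Gram-matrix inequality (1), the Lefschetz inequality (2) and the final estimate.
-/

set_option autoImplicit false

namespace Crest.Agent.X262.G3Num

open Finset

variable {V : Type*} [AddCommGroup V] [Module ℝ V] {B : LinearMap.BilinForm ℝ V} {H : V}

/-- Step (1): `x` is very negative.  With `h2 = (H.x)²/H²`, `ε = k N ρ/(H.x)`:
`(1-ε)² h2 ≤ (1-κ)(h2 - x²)`, `κ = 1/(4 (k-1)²)`. -/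
theorem HodgeIdx.step_one (h : HodgeIdx B H) {ι : Type*} [Fintype ι] (L : ι → V)
    (k d c N ρ : ℝ) (hk : k = Fintype.card ι) (hk2 : 2 ≤ k) (hN : 0 < N) (hc : 0 < c)
    (hcd : 2 * k ≤ c * d) (hsum : ∑ a, L a = d • H) (hLL : ∀ a, B (L a) (L a) = N * d)
    (hHL : ∀ a, B H (L a) = N * c * d) (hHH : B H H = k * N * c) (i j : ι)
    (Γ : SimpleGraph ι) (hΓ : Γ.Preconnected)
    (hadj : ∀ a b, Γ.Adj a b → B (L a) (L b) ≤ B (L i) (L j)) (x : V)
    (hxi : B (L i) x ≤ N * ρ * d) (hxj : B (L j) x ≤ N * ρ * d) (ε : ℝ) (hε1 : ε ≤ 1)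
    (hHx : 0 ≤ B H x) (hε : k * N * ρ ≤ ε * B H x) :
    (1 - ε) ^ 2 * ((B H x) ^ 2 / B H H) ≤ (1 - 1 / (4 * (k - 1) ^ 2)) * nf B H x x := by
  classical
  have hk0 : 0 < k := by linarith
  have hk1 : 0 < k - 1 := by linarith
  have hd : 0 < d := by
    by_contra hd
    push Not at hd
    nlinarith
  have : Nonempty ι := ⟨i⟩
  set P : ℝ := N * c * d ^ 2 / k with hP
  have hP0 : 0 < P := by positivity
  have hE : ∀ a, nf B H (L a) (L a) = P - N * d := by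
    intro a
    simp only [nf, hHL, hLL, hHH, hP]
    field_simp
  have hdiff : ∀ a b, nf B H (L a - L b) (L a - L b) = 2 * B (L a) (L b) - 2 * (N * d) := by
    intro a b
    simp only [nf, map_sub, LinearMap.sub_apply, hHL, hLL, h.symm (L b) (L a)]
    ring
  set D : ℝ := nf B H (L i - L j) (L i - L j) with hD
  have hD0 : 0 ≤ D := h.nf_nonneg _
  have horb := h.nf_orbital L d hsum (P - N * d) hE Γ hΓ D hD0 (fun a b hab => by
    rw [hD, hdiff, hdiff]; linarith [hadj a b hab])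
  rw [← hk] at horb
  have hPN : N * d ≤ P / 2 := by
    rw [hP, le_div_iff₀ (by norm_num : (0 : ℝ) < 2), le_div_iff₀ hk0]
    have : N * d * (2 * k) ≤ N * d * (c * d) := mul_le_mul_of_nonneg_left hcd (by positivity)
    nlinarith
  have hDP : P / (k - 1) ^ 2 ≤ D := by
    rw [div_le_iff₀ (by positivity)]; nlinarith
  -- the midpoint
  set m : V := L i + L j with hm
  have hmm : nf B H m m ≤ 4 * (P * (1 - 1 / (4 * (k - 1) ^ 2))) := by
    have h1 : nf B H m m = 4 * (P - N * d) - D := by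
      rw [hD, hm, nf_add_left, nf_add_right, nf_add_right, nf_sub_left, nf_sub_right, nf_sub_right,
        hE, hE]
      ring
    have h2 : 4 * (P * (1 - 1 / (4 * (k - 1) ^ 2))) = 4 * P - P / (k - 1) ^ 2 := by
      field_simp
    have h3 : 0 < N * d := by positivity
    linarith
  have hmx : 2 * (d / k) * (1 - ε) * B H x ≤ nf B H m x := by
    have h1 : nf B H m x = 2 * (d / k) * B H x - (B (L i) x + B (L j) x) := by
      simp only [nf, hm, map_add, LinearMap.add_apply, hHL, hHH]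
      field_simp
      ring
    have h2 : 2 * (N * ρ * d) ≤ 2 * (d / k) * (ε * B H x) := by
      have : 2 * (d / k) * (k * N * ρ) = 2 * (N * ρ * d) := by field_simp
      rw [← this]
      exact mul_le_mul_of_nonneg_left hε (by positivity)
    nlinarith
  have hcs := h.nf_cs m x
  have h0 : 0 ≤ 2 * (d / k) * (1 - ε) * B H x := by
    have : 0 ≤ 1 - ε := by linarith
    positivity
  have h1 : (2 * (d / k) * (1 - ε) * B H x) ^ 2 ≤ 4 * (P * (1 - 1 / (4 * (k - 1) ^ 2)))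
      * nf B H x x :=
    ((pow_le_pow_left₀ h0 hmx 2).trans hcs).trans
      (mul_le_mul_of_nonneg_right hmm (h.nf_nonneg x))
  have h2 : (2 * (d / k) * (1 - ε) * B H x) ^ 2
      = 4 * P * ((1 - ε) ^ 2 * ((B H x) ^ 2 / B H H)) := by
    rw [hHH, hP]; field_simp; ring
  rw [h2] at h1
  have h3 : 4 * P * ((1 - ε) ^ 2 * ((B H x) ^ 2 / B H H))
      ≤ 4 * P * ((1 - 1 / (4 * (k - 1) ^ 2)) * nf B H x x) := by linarith
  exact le_of_mul_le_mul_left h3 (by positivity)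

/-- Step (2), the canonical class: `K.x ≤ 6 N s + √(n N) √(nf x x)`. -/
theorem HodgeIdx.step_two (h : HodgeIdx B H) (L₀ K x : V) (k d c N ρ s n : ℝ) (hk : 0 < k)
    (hN : 0 < N) (hc : 0 < c) (hcd : 2 * k ≤ c * d) (hLL : B L₀ L₀ = N * d)
    (hHL : B H L₀ = N * c * d) (hHH : B H H = k * N * c) (hρ : ρ ≤ 3 * c)
    (hs0 : 0 ≤ s) (hKL : B K L₀ = 0) (hKK : -(n * N) ≤ B K K) (hKH : B K H = N * s)
    (hHx : 0 ≤ B H x) (hx : B L₀ x ≤ N * ρ * d) :
    B K x ≤ 6 * N * s + √(n * N) * √(nf B H x x) := by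
  have hd : 0 < d := by
    by_contra hd
    push Not at hd
    nlinarith
  set q : ℝ := c ^ 2 * d - k * c with hq
  have hq1 : c ^ 2 * d / 2 ≤ q := by rw [hq]; nlinarith
  have hq0 : 0 < q := lt_of_lt_of_le (by positivity) hq1
  set μ : ℝ := s / q with hμ
  have hμ0 : 0 ≤ μ := by positivity
  have hμq : μ * q = s := by rw [hμ]; field_simp
  set K' : V := K - μ • (c • L₀ - H) with hK'
  have hHK' : B H K' = 0 := by
    simp only [hK', map_sub, map_smul, smul_eq_mul, hHL, hHH, h.symm H K, hKH]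
    rw [← hμq, hq]; ring
  have hK'K' : nf B H K' K' ≤ n * N := by
    have h1 : nf B H K' K' = -B K K - N * (μ * s) := by
      simp only [nf, hHK']
      simp only [hK', map_sub, map_smul, LinearMap.sub_apply, LinearMap.smul_apply, smul_eq_mul,
        hHL, hHH, hLL, h.symm H K, h.symm L₀ K, h.symm L₀ H, hKH, hKL]
      have : s = μ * (c ^ 2 * d - k * c) := by rw [← hq, hμq]
      rw [this]; ring
    have h2 : 0 ≤ N * (μ * s) := by positivity
    linarith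
  have h1 : B K x = μ * (c * B L₀ x - B H x) - nf B H K' x := by
    simp only [nf, hHK']
    simp only [hK', map_sub, map_smul, LinearMap.sub_apply, LinearMap.smul_apply, smul_eq_mul]
    ring
  have h2 := h.neg_nf_le_sqrt K' x
  have h3 : √(nf B H K' K') * √(nf B H x x) ≤ √(n * N) * √(nf B H x x) :=
    mul_le_mul_of_nonneg_right (Real.sqrt_le_sqrt hK'K') (Real.sqrt_nonneg _)
  have h4 : μ * (c * B L₀ x - B H x) ≤ 6 * N * s := by
    have h5 : c * B L₀ x - B H x ≤ c * (N * (3 * c) * d) := by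
      have : B L₀ x ≤ N * (3 * c) * d :=
        hx.trans (mul_le_mul_of_nonneg_right (mul_le_mul_of_nonneg_left hρ hN.le) hd.le)
      nlinarith
    have h6 : μ * (c * (N * (3 * c) * d)) ≤ 6 * N * s := by
      rw [← hμq]
      have : μ * (c ^ 2 * d / 2) ≤ μ * q := mul_le_mul_of_nonneg_left hq1 hμ0
      nlinarith
    exact (mul_le_mul_of_nonneg_left h5 hμ0).trans h6
  linarith

/-- The final real inequality: `κ ≤ 1`, `ε ≤ κ/8`, `(1-ε)² ≤ (1-κ)(1+u)`,
`u ≤ M η + √η √(1+u)`, `η ≤ 1` force `κ ≤ 4 (M+1) √η`. -/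
theorem final_ineq (κ ε u η M : ℝ) (hκ0 : 0 < κ) (hκ1 : κ ≤ 1 / 4) (hε : ε ≤ κ / 8)
    (hu : 0 ≤ 1 + u) (h1 : (1 - ε) ^ 2 ≤ (1 - κ) * (1 + u)) (hM : 0 ≤ M) (hη0 : 0 ≤ η)
    (hη : η ≤ 1) (h2 : u ≤ M * η + √η * √(1 + u)) : κ ≤ 4 * (M + 1) * √η := by
  have hu1 : κ / 2 ≤ u := by
    have h3 : 1 - κ / 4 ≤ (1 - ε) ^ 2 := by nlinarith
    by_contra hlt
    push Not at hlt
    have : (1 - κ) * (1 + u) ≤ (1 - κ) * (1 + κ / 2) :=
      mul_le_mul_of_nonneg_left (by linarith) (by linarith)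
    nlinarith
  have hs : √(1 + u) ≤ 1 + u / 2 := by
    refine Real.sqrt_le_iff.mpr ⟨by linarith, ?_⟩
    nlinarith
  have he1 : √η ≤ 1 := Real.sqrt_le_one.mpr hη
  have he0 : 0 ≤ √η := Real.sqrt_nonneg _
  have he2 : η ≤ √η := by
    have := Real.mul_self_sqrt hη0
    nlinarith
  have h4 : √η * √(1 + u) ≤ √η * (1 + u / 2) := mul_le_mul_of_nonneg_left hs he0
  have h5 : √η * (u / 2) ≤ u / 2 := by nlinarith
  have h6 : M * η ≤ M * √η := mul_le_mul_of_nonneg_left he2 hM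
  nlinarith

theorem two_k_le (k d c : ℝ) (hk2 : 2 ≤ k) (hc : 0 < c) (hq1 : 1 ≤ c ^ 2 * d - k * c)
    (hd2 : (4 * k) ^ 2 < d) : 2 * k ≤ c * d := by
  have hk0 : 0 < k := by linarith
  have hd0 : 0 < d := lt_trans (by positivity) hd2
  by_contra hlt
  push Not at hlt
  have h1 : c * (c * d - k) * d ≤ 2 * k * k := by
    have : c * (c * d - k) * d = (c * d) * (c * d - k) := by ring
    rw [this]
    by_cases h2 : 0 ≤ c * d - k
    · exact mul_le_mul hlt.le (by linarith) h2 (by positivity)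
    · push Not at h2
      have : c * d * (c * d - k) ≤ 0 := mul_nonpos_of_nonneg_of_nonpos (by positivity) h2.le
      nlinarith
  have h3 : 1 * d ≤ c * (c * d - k) * d :=
    mul_le_mul_of_nonneg_right (by nlinarith) hd0.le
  nlinarith

theorem eps_le (k t : ℝ) (hk2 : 2 ≤ k) (hk7 : 2 ^ 10 * (4 * k) ^ 7 < t) :
    3 * k ^ 2 / t ≤ 1 / (4 * k ^ 2) / 8 ∧ k ^ 3 / t ≤ 1 := by
  have hk0 : 0 < k := by linarith
  have ht0 : 0 < t := lt_trans (by positivity) hk7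
  have h4k : (1 : ℝ) ≤ 4 * k := by linarith
  constructor
  · rw [div_le_iff₀ ht0]
    have h1 : (4 * k) ^ 4 ≤ (4 * k) ^ 7 := pow_le_pow_right₀ h4k (by norm_num)
    have h2 : 96 * k ^ 4 ≤ t := by nlinarith [pow_pos hk0 4]
    have h3 : 1 / (4 * k ^ 2) / 8 * (96 * k ^ 4) = 3 * k ^ 2 := by field_simp; ring
    rw [← h3]
    exact mul_le_mul_of_nonneg_left h2 (by positivity)
  · rw [div_le_one ht0]
    have h1 : (4 * k) ^ 3 ≤ (4 * k) ^ 7 := pow_le_pow_right₀ h4k (by norm_num)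
    nlinarith [pow_pos hk0 3]

theorem last_step (k t M η : ℝ) (hk0 : 0 < k) (ht0 : 0 < t) (hη0 : 0 ≤ η) (hηt : η ≤ k ^ 3 / t)
    (h : 1 / (4 * k ^ 2) ≤ 4 * (M + 7 + 1) * √η) : t ≤ 256 * (M + 8) ^ 2 * k ^ 7 := by
  have h1 : (1 / (4 * k ^ 2)) ^ 2 ≤ (4 * (M + 7 + 1) * √η) ^ 2 :=
    pow_le_pow_left₀ (by positivity) h 2
  rw [mul_pow, Real.sq_sqrt hη0] at h1
  have h3 : (1 / (4 * k ^ 2)) ^ 2 ≤ (4 * (M + 7 + 1)) ^ 2 * (k ^ 3 / t) :=
    h1.trans (mul_le_mul_of_nonneg_left hηt (by positivity))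
  have h5 : (1 / (4 * k ^ 2)) ^ 2 * (16 * k ^ 4 * t) ≤ (4 * (M + 7 + 1)) ^ 2 * (k ^ 3 / t)
      * (16 * k ^ 4 * t) := mul_le_mul_of_nonneg_right h3 (by positivity)
  have h6 : (1 / (4 * k ^ 2)) ^ 2 * (16 * k ^ 4 * t) = t := by field_simp; ring
  have h7 : (4 * (M + 7 + 1)) ^ 2 * (k ^ 3 / t) * (16 * k ^ 4 * t)
      = 256 * (M + 8) ^ 2 * k ^ 7 := by field_simp; ring
  linarith

theorem sqrt_step (N n β h2 u : ℝ) (hN : 0 < N) (hnβ : n ≤ β) (hβ : 0 < β) (hh20 : 0 < h2) :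
    √(n * N) * √(h2 * (1 + u)) ≤ h2 * (√(N * β / h2) * √(1 + u)) := by
  set η := N * β / h2 with hη
  have hη0 : 0 < η := by positivity
  have h3 : √(n * N) ≤ √η * √h2 := by
    rw [← Real.sqrt_mul hη0.le]
    refine Real.sqrt_le_sqrt ?_
    have : η * h2 = N * β := by rw [hη]; field_simp
    rw [this]; nlinarith
  rw [Real.sqrt_mul hh20.le]
  have h4 : √h2 * √h2 = h2 := Real.mul_self_sqrt hh20.le
  calc √(n * N) * (√h2 * √(1 + u)) ≤ √η * √h2 * (√h2 * √(1 + u)) := by gcongr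
    _ = (√h2 * √h2) * (√η * √(1 + u)) := by ring
    _ = h2 * (√η * √(1 + u)) := by rw [h4]

/-- The purely real part of the final estimate (`a = H.x`, `h2 = a²/H²`, `u = -x²/h2`). -/
theorem real_core (k c N ρ s n M a u t : ℝ) (hk2 : 2 ≤ k) (hN : 0 < N) (hc : 0 < c)
    (hx : N * (s + k * ρ) ≤ (k - 1) * a) (hρ0 : 0 ≤ ρ) (hρ : ρ ≤ 3 * c) (hs1 : 1 ≤ s)
    (hns : n ≤ s) (hM : 0 ≤ M) (hct : c * t ≤ s) (hu0 : 0 ≤ 1 + u)
    (hone : ∀ ε, ε ≤ 1 → k * N * ρ ≤ ε * a → (1 - ε) ^ 2 * (a ^ 2 / (k * N * c))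
      ≤ (1 - 1 / (4 * (k - 1) ^ 2)) * (a ^ 2 / (k * N * c) * (1 + u)))
    (htwo : a ^ 2 / (k * N * c) * u ≤ N * (n + M) + 6 * N * s
      + √(n * N) * √(a ^ 2 / (k * N * c) * (1 + u))) :
    t ≤ 2 ^ 4 * (M + 8) ^ 2 * (4 * k) ^ 7 := by
  by_contra htbig
  push Not at htbig
  have hk0 : 0 < k := by linarith
  have ht0 : 0 < t := lt_of_le_of_lt (by positivity) htbig
  set β : ℝ := s + k * ρ with hβ
  have hsβ : s ≤ β := by rw [hβ]; nlinarith
  have hβ1 : 1 ≤ β := hs1.trans hsβ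
  have ha0 : 0 < a := by
    by_contra hneg
    push Not at hneg
    have : (k - 1) * a ≤ 0 := mul_nonpos_of_nonneg_of_nonpos (by linarith) hneg
    have : 0 < N * β := by positivity
    linarith
  have hHx : N * β / k ≤ a := by
    rw [div_le_iff₀ hk0]
    linarith
  have hκ1 : 1 / (4 * (k - 1) ^ 2) ≤ 1 / 4 :=
    one_div_le_one_div_of_le (by norm_num) (by nlinarith)
  have hκ2 : 1 / (4 * k ^ 2) ≤ 1 / (4 * (k - 1) ^ 2) :=
    one_div_le_one_div_of_le (by have : 0 < k - 1 := by linarith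
                                 positivity) (by nlinarith)
  have hκ0 : 0 < 1 / (4 * (k - 1) ^ 2) := lt_of_lt_of_le (by positivity) hκ2
  set κ : ℝ := 1 / (4 * (k - 1) ^ 2) with hκ
  have hM2 : (64 : ℝ) ≤ (M + 8) ^ 2 := by nlinarith
  have hk7 : 2 ^ 10 * (4 * k) ^ 7 < t := by
    have : 2 ^ 4 * 64 * (4 * k) ^ 7 ≤ 2 ^ 4 * (M + 8) ^ 2 * (4 * k) ^ 7 := by gcongr
    linarith
  obtain ⟨he1, he2⟩ := eps_le k t hk2 hk7
  set ε : ℝ := 3 * k ^ 2 / t with hεdef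
  have hεκ : ε ≤ κ / 8 := he1.trans (div_le_div_of_nonneg_right hκ2 (by norm_num))
  have hε : k * N * ρ ≤ ε * a := by
    have h1 : ε * (N * β / k) ≤ ε * a := mul_le_mul_of_nonneg_left hHx (by positivity)
    refine le_trans ?_ h1
    have h2 : ε * (N * β / k) = k * N * (3 * β / t) := by rw [hεdef]; field_simp
    rw [h2]
    refine mul_le_mul_of_nonneg_left ?_ (by positivity)
    rw [le_div_iff₀ ht0]
    have : ρ * t ≤ 3 * c * t := mul_le_mul_of_nonneg_right hρ ht0.le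
    linarith
  have hone' := hone ε (by linarith) hε
  have hηt : N * β / (a ^ 2 / (k * N * c)) ≤ k ^ 3 / t := by
    rw [div_le_div_iff₀ (by positivity) ht0]
    have h1 : (N * β / k) ^ 2 ≤ a ^ 2 := pow_le_pow_left₀ (by positivity) hHx 2
    have h3 : k ^ 3 * ((N * β / k) ^ 2 / (k * N * c)) ≤ k ^ 3 * (a ^ 2 / (k * N * c)) := by
      gcongr
    refine le_trans ?_ h3
    have h4 : k ^ 3 * ((N * β / k) ^ 2 / (k * N * c)) = N * β * (β / c) := by field_simp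
    rw [h4]
    refine mul_le_mul_of_nonneg_left ?_ (by positivity)
    rw [le_div_iff₀ hc]; linarith
  have hh20 : 0 < a ^ 2 / (k * N * c) := by positivity
  set h2 : ℝ := a ^ 2 / (k * N * c) with hh2
  have hsq := sqrt_step N n β h2 u hN (hns.trans hsβ) (by linarith) hh20
  set η : ℝ := N * β / h2 with hη
  have hη0 : 0 < η := by positivity
  have hA : (1 - ε) ^ 2 ≤ (1 - κ) * (1 + u) := by
    have : h2 * (1 - ε) ^ 2 ≤ h2 * ((1 - κ) * (1 + u)) := by linarith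
    exact le_of_mul_le_mul_left this hh20
  have hB : u ≤ (M + 7) * η + √η * √(1 + u) := by
    have h4 : h2 * η = N * β := by rw [hη]; field_simp
    have h5 : N * (n + M) + 6 * N * s ≤ (M + 7) * (N * β) := by
      have h0 : M * 1 ≤ M * β := mul_le_mul_of_nonneg_left hβ1 hM
      have : N * (n + M + 6 * s) ≤ N * ((M + 7) * β) :=
        mul_le_mul_of_nonneg_left (by linarith) hN.le
      linarith
    have h6 : h2 * u ≤ h2 * ((M + 7) * η + √η * √(1 + u)) := by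
      rw [mul_add, ← mul_assoc, mul_comm h2 (M + 7), mul_assoc, h4]; linarith
    exact le_of_mul_le_mul_left h6 hh20
  have hfin := final_ineq κ ε u η (M + 7) hκ0 hκ1 hεκ hu0 hA (by linarith) hη0.le
    (hηt.trans he2) hB
  have h4 := last_step k t M η hk0 ht0 hη0.le hηt (hκ2.trans hfin)
  have h8 : 2 ^ 4 * (M + 8) ^ 2 * (4 * k) ^ 7 = 2 ^ 18 * ((M + 8) ^ 2 * k ^ 7) := by ring
  have h9 : 0 < (M + 8) ^ 2 * k ^ 7 := by positivity
  linarith

/-- **Numerical core of G3.**  `V` = classes on the Galois closure `W`, `L a` the pull-backs of `L`,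
`H` the pull-back of `D₀`, `x = x_{ij}`, `K = q_i^* K_X`; `N = deg q_i`, `c = D₀²`, `ρ = -K_Y.D₀`,
`s = ∑ c_a`, `n` the number of blown-up points, `M` the constant of the Lefschetz bound. -/
theorem HodgeIdx.g3_num (h : HodgeIdx B H) {ι : Type*} [Fintype ι] (L : ι → V)
    (k d c N ρ s n M : ℝ) (hk : k = Fintype.card ι) (hk2 : 2 ≤ k) (hN : 0 < N) (hc : 0 < c)
    (hsum : ∑ a, L a = d • H) (hLL : ∀ a, B (L a) (L a) = N * d)
    (hHL : ∀ a, B H (L a) = N * c * d) (hHH : B H H = k * N * c) (i j : ι)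
    (Γ : SimpleGraph ι) (hΓ : Γ.Preconnected)
    (hadj : ∀ a b, Γ.Adj a b → B (L a) (L b) ≤ B (L i) (L j)) (x K : V)
    (hx : N * (s + k * ρ) ≤ (k - 1) * B H x)
    (hxi : B (L i) x ≤ N * ρ * d) (hxj : B (L j) x ≤ N * ρ * d)
    (hρ0 : 0 ≤ ρ) (hρ : ρ ≤ 3 * c) (hs0 : 0 ≤ s) (hq1 : 1 ≤ c ^ 2 * d - k * c)
    (hs : c ^ 2 * d - k * c ≤ s ^ 2) (hns : n ≤ s) (hM : 0 ≤ M)
    (hKL : B K (L i) = 0) (hKK : -(n * N) ≤ B K K) (hKH : B K H = N * s)
    (hlef : -B x x ≤ N * (n + M) + B K x) :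
    d ≤ 2 ^ 9 * (M + 8) ^ 4 * (4 * k) ^ 14 := by
  by_contra hd
  push Not at hd
  have hk0 : 0 < k := by linarith
  have hM8 : (1 : ℝ) ≤ (M + 8) ^ 4 := one_le_pow₀ (by linarith)
  have h4k : (1 : ℝ) ≤ 4 * k := by linarith
  have hd2 : (4 * k) ^ 2 < d := by
    have h1 : (4 * k) ^ 2 ≤ (4 * k) ^ 14 := pow_le_pow_right₀ h4k (by norm_num)
    have h2 : 2 ^ 9 * 1 * (4 * k) ^ 14 ≤ 2 ^ 9 * (M + 8) ^ 4 * (4 * k) ^ 14 := by gcongr
    have h3 : 0 < (4 * k) ^ 14 := by positivity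
    linarith
  have hd0 : 0 < d := lt_trans (by positivity) hd2
  have hcd := two_k_le k d c hk2 hc hq1 hd2
  have hs1 : 1 ≤ s := by nlinarith
  have ht2 : √(d / 2) ^ 2 = d / 2 := Real.sq_sqrt (by positivity)
  have hct : c * √(d / 2) ≤ s := by
    refine le_of_pow_le_pow_left₀ two_ne_zero hs0 ?_
    rw [mul_pow, ht2]
    have : c * (2 * k) ≤ c * (c * d) := mul_le_mul_of_nonneg_left hcd hc.le
    linarith
  have ha0 : 0 < B H x := by
    by_contra hneg
    push Not at hneg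
    have h1 : (k - 1) * B H x ≤ 0 := mul_nonpos_of_nonneg_of_nonpos (by linarith) hneg
    have h2 : 0 < N * (s + k * ρ) := by positivity
    linarith
  have hh20 : 0 < (B H x) ^ 2 / (k * N * c) := by positivity
  set u : ℝ := -B x x / ((B H x) ^ 2 / (k * N * c)) with hu
  have hu1 : (B H x) ^ 2 / (k * N * c) * u = -B x x := by rw [hu]; field_simp
  have hnf : nf B H x x = (B H x) ^ 2 / (k * N * c) * (1 + u) := by
    rw [mul_add, hu1]; simp only [nf, hHH]; ring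
  have hu0 : 0 ≤ 1 + u := by
    have := h.nf_nonneg x
    rw [hnf] at this
    exact (mul_nonneg_iff_of_pos_left hh20).mp this
  have key := real_core k c N ρ s n M (B H x) u (√(d / 2)) hk2 hN hc hx hρ0 hρ hs1 hns hM hct hu0
    (fun ε hε1 hε => by
      have := h.step_one L k d c N ρ hk hk2 hN hc hcd hsum hLL hHL hHH i j Γ hΓ hadj x hxi hxj ε
        hε1 ha0.le hε
      rwa [hnf, hHH] at this)
    (by
      have := h.step_two (L i) K x k d c N ρ s n hk0 hN hc hcd (hLL i) (hHL i) hHH hρ hs0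
        hKL hKK hKH ha0.le hxi
      rw [hnf] at this
      linarith)
  have h1 := pow_le_pow_left₀ (Real.sqrt_nonneg _) key 2
  rw [ht2] at h1
  have h2 : (2 ^ 4 * (M + 8) ^ 2 * (4 * k) ^ 7) ^ 2 = 2 ^ 8 * ((M + 8) ^ 4 * (4 * k) ^ 14) := by
    ring
  have h3 : 2 ^ 9 * (M + 8) ^ 4 * (4 * k) ^ 14 = 2 ^ 9 * ((M + 8) ^ 4 * (4 * k) ^ 14) := by ring
  linarith

end Crest.Agent.X262.G3Num
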