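import Crest.Agent.X262.G3Num.Lorentz

/-!
# NUM: the numerical core of G3 along note 1870 (one ordering, no projection)
-/

set_option autoImplicit false

namespace Crest.Agent.X262.G3Num

open Finset

variable {V : Type*} [AddCommGroup V] [Module ℝ V] {B : LinearMap.BilinForm ℝ V} {H : V}

/-- One term of the Riemann–Roch sum, tested against a vector `m` which is `nf`-orthogonal to `K`.
`a = H.ξ`, `r = -H.K`. -/
theorem HodgeIdx.term_le (h : HodgeIdx B H) (ξ K m : V) (a r lam γ : ℝ) (ha : B H ξ = a)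
    (hr : B H K = -r) (ha0 : 0 ≤ a) (hr0 : 0 ≤ r) (hlam : 0 < lam) (hγ0 : 0 ≤ γ) (hγ : γ ≤ 1 / 2)
    (hKm : nf B H K m = 0) (hmm : nf B H m m ≤ (1 - γ) * (lam ^ 2 * B H H))
    (hξm : lam * (a - r) ≤ nf B H ξ m) :
    B ξ ξ + B K ξ ≤ (-γ * a ^ 2 + 2 * a * r) / B H H + nf B H K K / 4 := by
  have hH := h.pos
  set y : V := ξ + (1 / 2 : ℝ) • K with hy
  have h1 : B ξ ξ + B K ξ = (a ^ 2 - r * a) / B H H - nf B H y y + nf B H K K / 4 := by
    rw [hy, nf_add_left, nf_add_right, nf_add_right, nf_smul_left, nf_smul_right, nf_smul_left,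
      nf_smul_right, h.nf_symm ξ K]
    simp only [nf, ha, hr]
    field_simp
    ring
  have h2 : nf B H y m = nf B H ξ m := by
    rw [hy, nf_add_left, nf_smul_left, hKm]; ring
  have hy0 := h.nf_nonneg y
  have key : (a ^ 2 - r * a) / B H H - nf B H y y ≤ (-γ * a ^ 2 + 2 * a * r) / B H H := by
    rcases le_total a r with har | har
    · have h3 : a ^ 2 - r * a ≤ -γ * a ^ 2 + 2 * a * r := by nlinarith [mul_nonneg ha0 hr0]
      have := div_le_div_of_nonneg_right h3 hH.le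
      linarith
    · have h3 : (lam * (a - r)) ^ 2 ≤ nf B H y y * ((1 - γ) * (lam ^ 2 * B H H)) :=
        ((pow_le_pow_left₀ (mul_nonneg hlam.le (by linarith)) (h2 ▸ hξm) 2).trans
          (h.nf_cs y m)).trans (mul_le_mul_of_nonneg_left hmm hy0)
      have h4 : (a - r) ^ 2 ≤ (1 - γ) * (nf B H y y * B H H) := by
        have : lam ^ 2 * (a - r) ^ 2 ≤ lam ^ 2 * ((1 - γ) * (nf B H y y * B H H)) := by
          nlinarith
        exact le_of_mul_le_mul_left this (by positivity)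
      have h5 : (1 + γ) * (a - r) ^ 2 ≤ nf B H y y * B H H := by
        have h6 : 0 ≤ nf B H y y * B H H := by positivity
        nlinarith [mul_le_mul_of_nonneg_left h4 (show 0 ≤ 1 + γ by linarith),
          mul_nonneg (sq_nonneg γ) h6]
      rw [sub_le_iff_le_add, div_add' _ _ _ hH.ne']
      refine div_le_div_of_nonneg_right ?_ hH.le
      nlinarith [mul_nonneg ha0 hr0, mul_nonneg hγ0 (sq_nonneg r),
        mul_nonneg (show 0 ≤ 1 / 2 - γ by linarith) (mul_nonneg ha0 hr0)]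
  linarith

theorem quad_le {a b c : ℝ} (h : a ^ 2 ≤ 2 * b * a + c) : a ^ 2 ≤ 4 * b ^ 2 + 2 * c := by
  nlinarith [sq_nonneg (a - 2 * b)]

theorem fin_num (k t ρ κ w c₀ z : ℝ) (hk2 : 2 ≤ k) (ht : 0 < t) (hc₀ : 0 ≤ c₀) (hw : 0 ≤ w)
    (h1 : 1 / (2 * (k - 1) ^ 2) * z ^ 2 ≤ 2 * k ^ 2 * ρ * z + (c₀ * t + k * w * t / 4))
    (h4 : κ ≤ k ^ 2 * z) (hκ : 0 ≤ κ) :
    κ ^ 2 ≤ 64 * k ^ 12 * (c₀ * t + w * t + ρ ^ 2) := by
  have hk0 : 0 < k := by linarith
  have hk1 : 0 < k - 1 := by linarith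
  have h2 : z ^ 2 ≤ 2 * (2 * k ^ 4 * ρ) * z + 2 * k ^ 2 * (c₀ * t + k * w * t / 4) := by
    have h3 : 1 ≤ 2 * k ^ 2 * (1 / (2 * (k - 1) ^ 2)) := by
      rw [mul_one_div, le_div_iff₀ (by positivity)]; nlinarith
    have h4 : 2 * k ^ 2 * (1 / (2 * (k - 1) ^ 2) * z ^ 2)
        ≤ 2 * k ^ 2 * (2 * k ^ 2 * ρ * z + (c₀ * t + k * w * t / 4)) :=
      mul_le_mul_of_nonneg_left h1 (by positivity)
    nlinarith [mul_le_mul_of_nonneg_right h3 (sq_nonneg z)]
  have h3 := quad_le h2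
  have h5 : κ ^ 2 ≤ k ^ 4 * z ^ 2 := by
    have := pow_le_pow_left₀ hκ h4 2
    rwa [mul_pow, ← pow_mul] at this
  have h6 : k ^ 4 * z ^ 2 ≤ k ^ 4 * (4 * (2 * k ^ 4 * ρ) ^ 2
      + 2 * (2 * k ^ 2 * (c₀ * t + k * w * t / 4))) := mul_le_mul_of_nonneg_left h3 (by positivity)
  have hk1' : 1 ≤ k := by linarith
  have e1 : k ^ 6 ≤ k ^ 12 := pow_le_pow_right₀ hk1' (by norm_num)
  have e2 : k ^ 7 ≤ k ^ 12 := pow_le_pow_right₀ hk1' (by norm_num)
  have p1 : 0 ≤ c₀ * t := by positivity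
  have p2 : 0 ≤ w * t := by positivity
  have p3 : 0 ≤ k ^ 12 * ρ ^ 2 := by positivity
  have p4 : 0 ≤ k ^ 12 := by positivity
  have q1 := mul_le_mul_of_nonneg_right e1 p1
  have q2 := mul_le_mul_of_nonneg_right e2 p2
  have q3 := mul_nonneg p4 p1
  have q4 := mul_nonneg p4 p2
  have e : k ^ 4 * (4 * (2 * k ^ 4 * ρ) ^ 2 + 2 * (2 * k ^ 2 * (c₀ * t + k * w * t / 4)))
      = 16 * (k ^ 12 * ρ ^ 2) + 4 * (k ^ 6 * (c₀ * t)) + k ^ 7 * (w * t) := by ring
  have e' : 64 * k ^ 12 * (c₀ * t + w * t + ρ ^ 2)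
      = 64 * (k ^ 12 * (c₀ * t)) + 64 * (k ^ 12 * (w * t)) + 64 * (k ^ 12 * ρ ^ 2) := by ring
  linarith

/-- **NUM.**  `L a` the pull-backs of the polarisation (`∑ L a = d H`), `K` the pull-back of the
canonical class of the base, `ξ j` the graded pieces, `ξ j₀ = x_{i₀ j₀}`. -/
theorem HodgeIdx.num (h : HodgeIdx B H) {ι : Type*} [Fintype ι] (L : ι → V)
    (k d t N ρ κ w c₀ : ℝ) (hk : k = Fintype.card ι) (hk2 : 2 ≤ k) (hN : 0 < N) (ht : 0 < t)
    (hd : 0 < d) (hsum : ∑ a, L a = d • H) (hLL : ∀ a, B (L a) (L a) = N * d)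
    (hHL : ∀ a, B H (L a) = N * t * d) (hHH : B H H = k * N * t) (i₀ j₀ : ι)
    (Γ : SimpleGraph ι) (hΓ : Γ.Preconnected)
    (hadj : ∀ a b, Γ.Adj a b → B (L a) (L b) ≤ B (L i₀) (L j₀)) (ξ : ι → V) (K : V)
    (hρ : 0 ≤ ρ) (hκ : 0 ≤ κ) (hc₀ : 0 ≤ c₀)
    (hKL : ∀ a, B K (L a) = -(N * ρ * d)) (hKK : k * N * (ρ ^ 2 / t - w) ≤ B K K)
    (hξL : ∀ j, B (L j) (ξ j) ≤ N * ρ * d) (hξL₀ : B (L i₀) (ξ j₀) ≤ N * ρ * d)
    (hH0 : ∀ j, 0 ≤ B H (ξ j)) (hH1 : ∀ j, B H (ξ j) ≤ (k - 1) * B H (ξ j₀))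
    (hH2 : N * κ ≤ (k - 1) * B H (ξ j₀))
    (hRR : -(c₀ * (k * N)) ≤ ∑ j, (B (ξ j) (ξ j) + B K (ξ j))) :
    κ ^ 2 ≤ 64 * k ^ 12 * (c₀ * t + w * t + ρ ^ 2) := by
  classical
  have hk0 : 0 < k := by linarith
  have hk1 : 1 ≤ k - 1 := by linarith
  have : Nonempty ι := ⟨i₀⟩
  have hHK : B H K = -(k * N * ρ) := by
    have h1 : B (∑ a, L a) K = d * B H K := by rw [hsum, map_smul]; simp
    have h2 : B (∑ a, L a) K = k * -(N * ρ * d) := by
      rw [map_sum, LinearMap.sum_apply]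
      simp only [h.symm (L _) K, hKL]
      rw [Finset.sum_const, Finset.card_univ, nsmul_eq_mul, ← hk]
    have h3 : d * B H K = d * -(k * N * ρ) := by rw [← h1, h2]; ring
    exact mul_left_cancel₀ hd.ne' h3
  have hKn : ∀ a, nf B H K (L a) = 0 := by
    intro a
    simp only [nf, hHK, hHL, hHH, hKL]
    field_simp; ring
  have hKw : nf B H K K ≤ k * N * w := by
    have : B H K * B H K / B H H = k * N * (ρ ^ 2 / t) := by
      rw [hHK, hHH]; field_simp
    simp only [nf, this]; linarith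
  have hw : 0 ≤ w := by
    have := (h.nf_nonneg K).trans hKw
    exact (mul_nonneg_iff_of_pos_left (by positivity)).mp this
  set P : ℝ := (d / k) ^ 2 * B H H with hP
  have hE : ∀ a, nf B H (L a) (L a) = P - N * d := by
    intro a
    simp only [nf, hHL, hLL, hHH, hP]
    field_simp
  have hNd : 0 < N * d := by positivity
  have hE0 : 0 ≤ P - N * d := hE i₀ ▸ h.nf_nonneg _
  have hξn : ∀ a y, nf B H y (L a) = d / k * B H y - B (L a) y := by
    intro a y
    simp only [nf, hHL, hHH, h.symm y (L a)]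
    field_simp
  have hdk : d / k * (k * N * ρ) = N * ρ * d := by field_simp
  -- the generic term
  have hgen : ∀ j, B (ξ j) (ξ j) + B K (ξ j)
      ≤ 2 * B H (ξ j) * (k * N * ρ) / B H H + nf B H K K / 4 := by
    intro j
    have := h.term_le (ξ j) K (L j) (B H (ξ j)) (k * N * ρ) (d / k) 0 rfl hHK (hH0 j)
      (by positivity) (by positivity) le_rfl (by norm_num) (hKn j)
      (by rw [hE]; linarith) (by rw [hξn, mul_sub, hdk]; linarith [hξL j])
    simpa using this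
  -- the special term
  set γ : ℝ := 1 / (2 * (k - 1) ^ 2) with hγ
  have hγ0 : 0 < γ := by positivity
  have hγ1 : γ ≤ 1 / 2 := one_div_le_one_div_of_le (by norm_num) (by nlinarith)
  have hdiff : ∀ a b, nf B H (L a - L b) (L a - L b) = 2 * B (L a) (L b) - 2 * (N * d) := by
    intro a b
    simp only [nf, map_sub, LinearMap.sub_apply, hHL, hLL, h.symm (L b) (L a)]
    ring
  set D : ℝ := nf B H (L i₀ - L j₀) (L i₀ - L j₀) with hD
  have horb := h.nf_orbital L d hsum (P - N * d) hE Γ hΓ D (h.nf_nonneg _) (fun a b hab => by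
    rw [hD, hdiff, hdiff]; linarith [hadj a b hab])
  rw [← hk] at horb
  have hDP : 4 * γ * (P - N * d) ≤ D := by
    have : 4 * γ * (P - N * d) = 2 * (P - N * d) / (k - 1) ^ 2 := by rw [hγ]; field_simp; ring
    rw [this, div_le_iff₀ (by positivity)]; linarith
  have hspec : B (ξ j₀) (ξ j₀) + B K (ξ j₀) ≤ (-γ * B H (ξ j₀) ^ 2
      + 2 * B H (ξ j₀) * (k * N * ρ)) / B H H + nf B H K K / 4 := by
    refine h.term_le (ξ j₀) K (L i₀ + L j₀) _ _ (2 * (d / k)) γ rfl hHK (hH0 j₀) (by positivity)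
      (by positivity) hγ0.le hγ1 (by rw [nf_add_right, hKn, hKn, add_zero]) ?_ ?_
    · have h1 : nf B H (L i₀ + L j₀) (L i₀ + L j₀) = 4 * (P - N * d) - D := by
        rw [hD, nf_add_left, nf_add_right, nf_add_right, nf_sub_left, nf_sub_right, nf_sub_right,
          hE, hE]
        ring
      have h2 : (2 * (d / k)) ^ 2 * B H H = 4 * P := by rw [hP]; ring
      rw [h1, h2]
      nlinarith
    · rw [nf_add_right, hξn, hξn]
      linarith [hξL j₀]
  set a : ℝ := B H (ξ j₀) with ha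
  have ha0 : 0 ≤ a := hH0 j₀
  have hHp := h.pos
  have hsumle : ∑ j, (B (ξ j) (ξ j) + B K (ξ j))
      ≤ -γ * a ^ 2 / B H H + k * (2 * (k * a) * (k * N * ρ) / B H H + k * N * w / 4) := by
    have h1 : ∀ j, B (ξ j) (ξ j) + B K (ξ j) ≤ (if j = j₀ then -γ * a ^ 2 / B H H else 0)
        + (2 * (k * a) * (k * N * ρ) / B H H + k * N * w / 4) := by
      intro j
      have h2 : 2 * B H (ξ j) * (k * N * ρ) / B H H ≤ 2 * (k * a) * (k * N * ρ) / B H H := by
        have : B H (ξ j) ≤ k * a := by linarith [hH1 j]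
        gcongr
      split_ifs with hj
      · subst hj
        rw [add_div] at hspec
        linarith
      · linarith [hgen j]
    refine (Finset.sum_le_sum fun j _ => h1 j).trans (le_of_eq ?_)
    rw [Finset.sum_add_distrib, Finset.sum_ite_eq', Finset.sum_const, Finset.card_univ,
      nsmul_eq_mul, ← hk]
    simp
  -- clear denominators: `z = a / (k N)`
  set z : ℝ := a / (k * N) with hz
  have haz : a = k * N * z := by rw [hz]; field_simp
  have hz0 : 0 ≤ z := by positivity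
  have h1 : γ * z ^ 2 ≤ 2 * k ^ 2 * ρ * z + (c₀ * t + k * w * t / 4) := by
    have h2 := hRR.trans hsumle
    rw [haz, hHH] at h2
    have h3 : -γ * (k * N * z) ^ 2 / (k * N * t)
        + k * (2 * (k * (k * N * z)) * (k * N * ρ) / (k * N * t) + k * N * w / 4)
        = (k * N / t) * (-γ * z ^ 2 + 2 * k ^ 2 * ρ * z + k * w * t / 4) := by
      field_simp; ring
    have h4 : -(c₀ * (k * N)) = (k * N / t) * -(c₀ * t) := by field_simp
    rw [h3, h4] at h2
    have := le_of_mul_le_mul_left h2 (by positivity)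
    linarith
  refine fin_num k t ρ κ w c₀ z hk2 ht hc₀ hw h1 ?_ hκ
  have h5 : N * κ ≤ N * (k ^ 2 * z) := by
    rw [haz] at hH2
    have h6 : 0 ≤ k * N * z := by positivity
    have h7 : (k - 1) * (k * N * z) = N * (k ^ 2 * z) - k * N * z := by ring
    linarith
  exact le_of_mul_le_mul_left h5 hN

end Crest.Agent.X262.G3Num
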