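import Crest.Agent.X262.G3Num.NumZ
import Crest.Agent.X277.BD.Num2

/-!
# NUM for b-divisors on a surface
-/

set_option autoImplicit false

namespace Crest.Agent.X262.G3Num

open Finset Crest.Agent.X277 Crest.Agent.X277.BD

universe u

variable {k F : Type u} [Field k] [Field F] [Algebra k F] [CharZero k] [Algebra.EssFiniteType k F]

variable (k F) in
/-- the intersection form of a surface -/
noncomputable def bil : LinearMap.BilinForm ℤ (BD k F) :=
  LinearMap.mk₂ ℤ (fun a b => bnum [a, b]) (fun a b c => bnum_add a b [c])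
    (fun m a b => bnum_zsmul m a [b]) (fun a b c => bnum_add2 a b c [])
    (fun m a b => bnum_zsmul2 a m b [])

@[simp] theorem bil_apply (a b : BD k F) : bil k F a b = bnum [a, b] := rfl

theorem bnum_sum2 {ι : Type*} (s : Finset ι) (x : BD k F) (a : ι → BD k F) :
    bnum [x, ∑ i ∈ s, a i] = ∑ i ∈ s, bnum [x, a i] := map_sum (bil k F x) a s

/-- **NUM for b-divisors.**  `X i j c = L_c . x_{ij}`; for every ordering of the sheets the graded
pieces `ξ j` have `L_c . ξ_j = ∑_{i < j} X i j c` and satisfy the Riemann–Roch inequality. -/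
theorem num_BD {G ι : Type*} [Group G] [MulAction G ι] [MulAction.IsPreprimitive G ι] [Fintype ι]
    [DecidableEq ι] (L : ι → BD k F)
    (hG : ∀ (g : G) (a c : ι), bnum [L (g • a), L (g • c)] = bnum [L a, L c])
    (n d t N ρ κ w c₀ : ℝ) (hn : n = Fintype.card ι) (hn2 : 2 ≤ n) (hN : 0 < N) (ht : 0 < t)
    (hd : 0 < d) (hLL : ∀ a, (bnum [L a, L a] : ℝ) = N * d)
    (hHL : ∀ c, (bnum [∑ a, L a, L c] : ℝ) = N * t * d ^ 2) (K : BD k F)
    (hρ : 0 ≤ ρ) (hκ : 0 ≤ κ) (hc₀ : 0 ≤ c₀)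
    (hKL : ∀ a, (bnum [K, L a] : ℝ) = -(N * ρ * d)) (hKK : n * N * (ρ ^ 2 / t - w) ≤ bnum [K, K])
    (X : ι → ι → ι → ℝ) (hX0 : ∀ i j c, i ≠ j → 0 ≤ X i j c) (hXs : ∀ i j c, X i j c = X j i c)
    (hXr : ∀ i, ∑ j ∈ univ.erase i, X i j i ≤ N * ρ * d) (i₁ : ι)
    (hXκ : N * κ * d ≤ ∑ j ∈ univ.erase i₁, ∑ c, X i₁ j c)
    (hord : ∀ e : ι ≃ Fin (Fintype.card ι), ∃ ξ : ι → BD k F,
      (∀ j c, (bnum [L c, ξ j] : ℝ) = ∑ i ∈ univ.filter (fun i => e i < e j), X i j c) ∧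
      -(c₀ * (n * N)) ≤ ∑ j, ((bnum [ξ j, ξ j] : ℝ) + bnum [K, ξ j])) :
    κ ^ 2 ≤ 64 * n ^ 12 * (c₀ * t + w * t + ρ ^ 2) := by
  refine num_lattice (G := G) (bil k F) (fun x y => bnum_swap x y []) L (fun x => ?_) hG n d t N ρ κ
    w c₀ hn hn2 hN ht hd hLL hHL K hρ hκ hc₀ hKL hKK X hX0 hXs hXr i₁ hXκ hord
  refine hi (Λ := []) (by simp) ?_ x
  have : (0 : ℝ) < bnum [∑ a, L a, ∑ a, L a] := by
    rw [bnum_sum2]
    push_cast
    simp only [hHL]
    rw [Finset.sum_const, Finset.card_univ, nsmul_eq_mul, ← hn]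
    have : 0 < n := by linarith
    positivity
  exact_mod_cast this

end Crest.Agent.X262.G3Num
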