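import Crest.Agent.X262.G3Num.Num

/-!
# NUM for an integral lattice (no quotient by the radical, no projection)
-/

set_option autoImplicit false

namespace Crest.Agent.X262.G3Num

open Finset TensorProduct

variable {A : Type*} [AddCommGroup A]

/-- the real form of an integral form -/
noncomputable abbrev bR (b : LinearMap.BilinForm ℤ A) : LinearMap.BilinForm ℝ (ℝ ⊗[ℤ] A) :=
  LinearMap.BilinForm.baseChange ℝ b

theorem bR_tmul (b : LinearMap.BilinForm ℤ A) (s t : ℝ) (x y : A) :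
    bR b (s ⊗ₜ x) (t ⊗ₜ y) = s * t * b x y := by
  simp [bR, LinearMap.BilinForm.baseChange_tmul, mul_comm]

theorem bR_symm {b : LinearMap.BilinForm ℤ A} (hb : ∀ x y, b x y = b y x) (u v : ℝ ⊗[ℤ] A) :
    bR b u v = bR b v u := by
  induction u using TensorProduct.induction_on with
  | zero => simp
  | add u u' h h' => simp only [map_add, LinearMap.add_apply, h, h']
  | tmul s x =>
    induction v using TensorProduct.induction_on with
    | zero => simp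
    | add v v' h h' => simp only [map_add, LinearMap.add_apply, h, h']
    | tmul t y => rw [bR_tmul, bR_tmul, hb x y, mul_comm s t]

/-- A real bilinear form on `ℝ ⊗ A` which is nonnegative on the lattice is nonnegative. -/
theorem nonneg_of_lattice (Q : LinearMap.BilinForm ℝ (ℝ ⊗[ℤ] A))
    (h : ∀ a : A, 0 ≤ Q (1 ⊗ₜ a) (1 ⊗ₜ a)) (x : ℝ ⊗[ℤ] A) : 0 ≤ Q x x := by
  let S : Set (ℝ ⊗[ℤ] A) := {y | ∃ m : ℕ, 0 < m ∧ ∃ a : A, (m : ℝ) • y = 1 ⊗ₜ a}
  have hz : ∀ (n : ℤ) (a : A), (n : ℝ) • ((1 : ℝ) ⊗ₜ[ℤ] a) = 1 ⊗ₜ (n • a) := by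
    intro n a
    rw [TensorProduct.tmul_smul, Int.cast_smul_eq_zsmul]
  have hS0 : ∀ y ∈ S, 0 ≤ Q y y := by
    rintro y ⟨m, hm, a, ha⟩
    have h1 := h a
    rw [← ha] at h1
    simp only [map_smul, LinearMap.smul_apply, smul_eq_mul] at h1
    have hm' : (0 : ℝ) < m := by exact_mod_cast hm
    exact (mul_nonneg_iff_of_pos_left hm').mp ((mul_nonneg_iff_of_pos_left hm').mp h1)
  have hSq : ∀ (q : ℚ) (a : A), ∀ y ∈ S, (q : ℝ) • ((1 : ℝ) ⊗ₜ[ℤ] a) + y ∈ S := by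
    rintro q a y ⟨m, hm, a', ha⟩
    refine ⟨q.den * m, Nat.mul_pos q.den_pos hm, (q.num * m) • a + (q.den : ℤ) • a', ?_⟩
    have h1 : ((q.den * m : ℕ) : ℝ) * (q : ℝ) = ((q.num * m : ℤ) : ℝ) := by
      have : (q : ℝ) = q.num / q.den := by exact_mod_cast (Rat.num_div_den q).symm
      have hd : (q.den : ℝ) ≠ 0 := by exact_mod_cast q.den_ne_zero
      rw [this]; push_cast; field_simp
    rw [smul_add, smul_smul, h1, hz, TensorProduct.tmul_add, Nat.cast_mul,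
      mul_smul (q.den : ℝ) (m : ℝ) y, ha, ← hz (q.den : ℤ) a', Int.cast_natCast]
  have key : ∀ z : ℝ ⊗[ℤ] A, ∀ x, (∀ y ∈ S, 0 ≤ Q (x + y) (x + y)) →
      ∀ y ∈ S, 0 ≤ Q (x + z + y) (x + z + y) := by
    intro z
    induction z using TensorProduct.induction_on with
    | zero => intro x hx; simpa using hx
    | add z z' ih ih' => intro x hx; simpa only [add_assoc] using ih' _ (ih x hx)
    | tmul t a =>
      intro x hx y hy
      set u : ℝ ⊗[ℤ] A := 1 ⊗ₜ a with hu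
      have ht : ∀ t : ℝ, Q (x + (t • u + y)) (x + (t • u + y))
          = Q (x + y) (x + y) + t * (Q u (x + y) + Q (x + y) u) + t * t * Q u u := by
        intro t
        simp only [map_add, map_smul, LinearMap.add_apply, LinearMap.smul_apply, smul_eq_mul]
        ring
      have h1 : t ⊗ₜ[ℤ] a = t • u := by rw [hu, TensorProduct.smul_tmul', smul_eq_mul, mul_one]
      rw [h1, add_assoc, ht]
      refine Rat.denseRange_cast.induction_on (p := fun t : ℝ => 0 ≤ Q (x + y) (x + y)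
        + t * (Q u (x + y) + Q (x + y) u) + t * t * Q u u) t
        (isClosed_le continuous_const (by fun_prop)) fun q => ?_
      rw [← ht]
      exact hx _ (hSq q a y hy)
  have := key x 0 (by simpa using hS0) 0 ⟨1, one_pos, 0, by simp⟩
  simpa using this

theorem hodgeIdx_bR {b : LinearMap.BilinForm ℤ A} (hb : ∀ x y, b x y = b y x) {Λ : A}
    (hpos : 0 < b Λ Λ) (hidx : ∀ x, b Λ Λ * b x x ≤ (b Λ x) ^ 2) {s : ℝ} (hs : s ≠ 0) :
    HodgeIdx (bR b) (s ⊗ₜ Λ) where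
  symm := bR_symm hb
  pos := by
    rw [bR_tmul]
    have : (0 : ℝ) < b Λ Λ := by exact_mod_cast hpos
    exact mul_pos (mul_self_pos.mpr hs) this
  idx x := by
    let Q : LinearMap.BilinForm ℝ (ℝ ⊗[ℤ] A) :=
      (bR b (s ⊗ₜ Λ)).smulRight (bR b (s ⊗ₜ Λ)) - bR b (s ⊗ₜ Λ) (s ⊗ₜ Λ) • bR b
    have hQ : ∀ u, Q u u = (bR b (s ⊗ₜ Λ) u) ^ 2 - bR b (s ⊗ₜ Λ) (s ⊗ₜ Λ) * bR b u u := by
      intro u
      simp only [Q, LinearMap.sub_apply, LinearMap.smulRight_apply, LinearMap.smul_apply,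
        smul_eq_mul]
      ring
    have := nonneg_of_lattice Q (fun a => by
      rw [hQ, bR_tmul, bR_tmul, bR_tmul]
      have h1 : (b Λ Λ : ℝ) * b a a ≤ (b Λ a : ℝ) ^ 2 := by exact_mod_cast hidx a
      nlinarith [mul_le_mul_of_nonneg_left h1 (mul_self_nonneg s)]) x
    rw [hQ] at this
    linarith

theorem exists_ord {ι : Type*} [Fintype ι] {i j : ι} (hij : i ≠ j) :
    ∃ e : ι ≃ Fin (Fintype.card ι), ∀ a, e a < e j ↔ a = i := by
  classical
  have h2 : 1 < Fintype.card ι := Fintype.one_lt_card_iff.mpr ⟨i, j, hij⟩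
  let z : Fin (Fintype.card ι) := ⟨0, by omega⟩
  let o : Fin (Fintype.card ι) := ⟨1, h2⟩
  let e0 := Fintype.equivFin ι
  let e1 := e0.trans (Equiv.swap (e0 i) z)
  let e2 := e1.trans (Equiv.swap (e1 j) o)
  have h1 : e1 i = z := by simp [e1]
  have h3 : e1 j ≠ z := fun h => hij (e1.injective (h1.trans h.symm))
  have h4 : e2 i = z := by
    change Equiv.swap (e1 j) o (e1 i) = z
    rw [h1]
    exact Equiv.swap_apply_of_ne_of_ne h3.symm (by simp [z, o, Fin.ext_iff])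
  have h5 : e2 j = o := by
    change Equiv.swap (e1 j) o (e1 j) = o
    exact Equiv.swap_apply_left _ _
  refine ⟨e2, fun a => ?_⟩
  rw [h5]
  constructor
  · intro h
    refine e2.injective (h4 ▸ Fin.ext ?_)
    have : (e2 a : ℕ) < 1 := h
    simp only [z]; omega
  · rintro rfl
    rw [h4]; exact Nat.zero_lt_one

/-- **NUM on a lattice.**  `X i j c = L_c . x_{ij}`; for every ordering of the sheets the graded
pieces `ξ j` have `L_c . ξ_j = ∑_{i < j} X i j c` and satisfy the Riemann–Roch inequality. -/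
theorem num_lattice (b : LinearMap.BilinForm ℤ A) (hb : ∀ x y, b x y = b y x)
    {G ι : Type*} [Group G] [MulAction G ι] [MulAction.IsPreprimitive G ι] [Fintype ι]
    [DecidableEq ι] (L : ι → A)
    (hidx : ∀ x, b (∑ a, L a) (∑ a, L a) * b x x ≤ (b (∑ a, L a) x) ^ 2)
    (hG : ∀ (g : G) (a c : ι), b (L (g • a)) (L (g • c)) = b (L a) (L c))
    (k d t N ρ κ w c₀ : ℝ) (hk : k = Fintype.card ι) (hk2 : 2 ≤ k) (hN : 0 < N) (ht : 0 < t)
    (hd : 0 < d) (hLL : ∀ a, (b (L a) (L a) : ℝ) = N * d)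
    (hHL : ∀ c, (b (∑ a, L a) (L c) : ℝ) = N * t * d ^ 2) (K : A)
    (hρ : 0 ≤ ρ) (hκ : 0 ≤ κ) (hc₀ : 0 ≤ c₀)
    (hKL : ∀ a, (b K (L a) : ℝ) = -(N * ρ * d)) (hKK : k * N * (ρ ^ 2 / t - w) ≤ b K K)
    (X : ι → ι → ι → ℝ) (hX0 : ∀ i j c, i ≠ j → 0 ≤ X i j c) (hXs : ∀ i j c, X i j c = X j i c)
    (hXr : ∀ i, ∑ j ∈ univ.erase i, X i j i ≤ N * ρ * d) (i₁ : ι)
    (hXκ : N * κ * d ≤ ∑ j ∈ univ.erase i₁, ∑ c, X i₁ j c)
    (hord : ∀ e : ι ≃ Fin (Fintype.card ι), ∃ ξ : ι → A,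
      (∀ j c, (b (L c) (ξ j) : ℝ) = ∑ i ∈ univ.filter (fun i => e i < e j), X i j c) ∧
      -(c₀ * (k * N)) ≤ ∑ j, ((b (ξ j) (ξ j) : ℝ) + b K (ξ j))) :
    κ ^ 2 ≤ 64 * k ^ 12 * (c₀ * t + w * t + ρ ^ 2) := by
  have hk0 : 0 < k := by linarith
  have hcard : ∀ i : ι, ((univ.erase i).card : ℝ) = k - 1 := by
    intro i
    rw [Finset.card_erase_of_mem (Finset.mem_univ i), Finset.card_univ, hk,
      Nat.cast_sub (Nat.succ_le_of_lt (Fintype.card_pos_iff.mpr ⟨i⟩))]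
    simp
  have hne : (univ.offDiag : Finset (ι × ι)).Nonempty := by
    have h1 : 1 < Fintype.card ι := by
      have : (1 : ℝ) < Fintype.card ι := by linarith
      exact_mod_cast this
    obtain ⟨i, j, hij⟩ := Fintype.one_lt_card_iff.mp h1
    exact ⟨(i, j), by simpa using hij⟩
  obtain ⟨⟨i₀, j₀⟩, hp, hmax⟩ := Finset.exists_max_image _
    (fun p : ι × ι => ∑ c, X p.1 p.2 c) hne
  have hij : i₀ ≠ j₀ := by simpa using hp
  have hmax' : ∀ i j, i ≠ j → ∑ c, X i j c ≤ ∑ c, X i₀ j₀ c := fun i j h =>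
    hmax (i, j) (by simpa using h)
  obtain ⟨e, he⟩ := exists_ord hij
  obtain ⟨ξ, hξ, hRR⟩ := hord e
  have hΛΛ : (b (∑ a, L a) (∑ a, L a) : ℝ) = k * (N * t * d ^ 2) := by
    conv_lhs => rw [map_sum]
    push_cast
    simp only [hHL]
    rw [Finset.sum_const, Finset.card_univ, nsmul_eq_mul, ← hk]
  have hpos : 0 < b (∑ a, L a) (∑ a, L a) := by
    have : (0 : ℝ) < b (∑ a, L a) (∑ a, L a) := by rw [hΛΛ]; positivity
    exact_mod_cast this
  have hH := hodgeIdx_bR hb hpos hidx (inv_ne_zero hd.ne')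
  have hsub : ∀ j, univ.filter (fun i => e i < e j) ⊆ univ.erase j := by
    intro j i hi
    rw [Finset.mem_filter] at hi
    exact Finset.mem_erase.mpr ⟨fun h => lt_irrefl _ (h ▸ hi.2), Finset.mem_univ _⟩
  have hrow : ∀ j c, (b (L c) (ξ j) : ℝ) ≤ ∑ i ∈ univ.erase j, X j i c := by
    intro j c
    rw [hξ]
    simp only [hXs j]
    exact Finset.sum_le_sum_of_subset_of_nonneg (hsub j) fun i hi _ =>
      hX0 i j c (Finset.ne_of_mem_erase hi)
  have hξ₀ : ∀ c, (b (L c) (ξ j₀) : ℝ) = X i₀ j₀ c := by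
    intro c
    rw [hξ]
    have : univ.filter (fun i => e i < e j₀) = {i₀} := by
      ext a; simp [he]
    rw [this, Finset.sum_singleton]
  have hΛξ : ∀ j, (b (∑ a, L a) (ξ j) : ℝ) = ∑ c, (b (L c) (ξ j) : ℝ) := by
    intro j
    rw [map_sum, LinearMap.sum_apply]; push_cast; rfl
  have hrowmax : ∀ i, ∑ j ∈ univ.erase i, ∑ c, X i j c ≤ (k - 1) * ∑ c, X i₀ j₀ c := by
    intro i
    have := Finset.sum_le_card_nsmul (univ.erase i) (fun j => ∑ c, X i j c) (∑ c, X i₀ j₀ c)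
      fun j hj => hmax' i j (Finset.ne_of_mem_erase hj).symm
    rwa [nsmul_eq_mul, hcard] at this
  have hHξ₀ : (b (∑ a, L a) (ξ j₀) : ℝ) = ∑ c, X i₀ j₀ c := by simp only [hΛξ, hξ₀]
  have hd' : 0 < d⁻¹ := inv_pos.mpr hd
  refine hH.num (fun a => 1 ⊗ₜ L a) k d t N ρ κ w c₀ hk hk2 hN ht hd ?_ ?_ ?_ ?_ i₀ j₀ _
    (orbital_preconnected (G := G) hij) ?_ (fun j => 1 ⊗ₜ ξ j) (1 ⊗ₜ K) hρ hκ hc₀ ?_ ?_ ?_ ?_ ?_
    ?_ ?_ ?_
  · rw [TensorProduct.smul_tmul', smul_eq_mul, mul_inv_cancel₀ hd.ne', TensorProduct.tmul_sum]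
  · intro a; rw [bR_tmul, hLL]; ring
  · intro a; rw [bR_tmul, hHL]; field_simp
  · rw [bR_tmul, hΛΛ]; field_simp
  · intro a c hac
    rw [SimpleGraph.fromRel_adj] at hac
    rw [bR_tmul, bR_tmul]
    rcases hac.2 with ⟨g, rfl, rfl⟩ | ⟨g, rfl, rfl⟩
    · rw [hG]
    · rw [hb, hG]
  · intro a; rw [bR_tmul, hKL]; ring
  · rw [bR_tmul]; linarith
  · intro j; rw [bR_tmul]; linarith [hrow j j, hXr j]
  · rw [bR_tmul, hξ₀]
    have := Finset.single_le_sum (f := fun j => X i₀ j i₀)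
      (fun j hj => hX0 i₀ j i₀ (Finset.ne_of_mem_erase hj).symm)
      (Finset.mem_erase.mpr ⟨hij.symm, Finset.mem_univ _⟩)
    linarith [hXr i₀]
  · intro j
    rw [bR_tmul, hΛξ]
    refine mul_nonneg (by positivity) (Finset.sum_nonneg fun c _ => ?_)
    rw [hξ]
    exact Finset.sum_nonneg fun i hi => hX0 i j c (Finset.ne_of_mem_erase (hsub j hi))
  · intro j
    rw [bR_tmul, bR_tmul, hHξ₀, hΛξ]
    have h1 : ∑ c, (b (L c) (ξ j) : ℝ) ≤ ∑ i ∈ univ.erase j, ∑ c, X j i c := by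
      rw [Finset.sum_comm]
      exact Finset.sum_le_sum fun c _ => hrow j c
    nlinarith [hrowmax j]
  · rw [bR_tmul, hHξ₀]
    have h1 := hXκ.trans (hrowmax i₁)
    have h2 : N * κ = d⁻¹ * (N * κ * d) := by field_simp
    rw [h2]
    nlinarith
  · simpa only [bR_tmul, one_mul] using hRR

end Crest.Agent.X262.G3Num
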