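import Crest.Agent.X262.G3Num.Main

/-!
# G3: the packaged numerical theorem (primitive group action) and the Lefschetz trace bound
-/

set_option autoImplicit false

namespace Crest.Agent.X262.G3Num

open Finset Module

variable {V : Type*} [AddCommGroup V] [Module ℝ V] {B : LinearMap.BilinForm ℝ V} {H : V}

/-- **G3, numerical core, group form.**  A group acts primitively on the `k ≥ 2` sheets and
preserves the Gram matrix of the `L a`; `x j = x_{ij}` for a fixed sheet `i`. -/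
theorem HodgeIdx.g3_group (h : HodgeIdx B H) {G ι : Type*} [Group G] [MulAction G ι]
    [MulAction.IsPreprimitive G ι] [Fintype ι] [DecidableEq ι] (L : ι → V)
    (hG : ∀ (g : G) (a b : ι), B (L (g • a)) (L (g • b)) = B (L a) (L b))
    (k d c N ρ s n M : ℝ) (hk : k = Fintype.card ι) (hk2 : 2 ≤ k) (hN : 0 < N) (hc : 0 < c)
    (hsum : ∑ a, L a = d • H) (hLL : ∀ a, B (L a) (L a) = N * d)
    (hHL : ∀ a, B H (L a) = N * c * d) (hHH : B H H = k * N * c) (i : ι) (x : ι → V) (K : V)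
    (hx : N * (s + k * ρ) ≤ ∑ j ∈ univ.erase i, B H (x j))
    (hxi : ∀ j, j ≠ i → B (L i) (x j) ≤ N * ρ * d) (hxj : ∀ j, j ≠ i → B (L j) (x j) ≤ N * ρ * d)
    (hρ0 : 0 ≤ ρ) (hρ : ρ ≤ 3 * c) (hs0 : 0 ≤ s) (hq1 : 1 ≤ c ^ 2 * d - k * c)
    (hs : c ^ 2 * d - k * c ≤ s ^ 2) (hns : n ≤ s) (hM : 0 ≤ M)
    (hKL : B K (L i) = 0) (hKK : -(n * N) ≤ B K K) (hKH : B K H = N * s)
    (hlef : ∀ j, j ≠ i → -B (x j) (x j) ≤ N * (n + M) + B K (x j)) :
    d ≤ 2 ^ 9 * (M + 8) ^ 4 * (4 * k) ^ 14 := by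
  have hcard : ((univ.erase i).card : ℝ) = k - 1 := by
    rw [Finset.card_erase_of_mem (Finset.mem_univ i), Finset.card_univ, hk,
      Nat.cast_sub (Nat.succ_le_of_lt (Fintype.card_pos_iff.mpr ⟨i⟩))]
    simp
  have hne : (univ.erase i).Nonempty := by
    rw [← Finset.card_pos]
    have : (0 : ℝ) < ((univ.erase i).card : ℝ) := by rw [hcard]; linarith
    exact_mod_cast this
  obtain ⟨j, hj, hjmax⟩ := Finset.exists_max_image (univ.erase i) (fun j => B H (x j)) hne
  have hji : j ≠ i := Finset.ne_of_mem_erase hj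
  have hx' : N * (s + k * ρ) ≤ (k - 1) * B H (x j) := by
    refine hx.trans ?_
    have := Finset.sum_le_card_nsmul (univ.erase i) (fun j => B H (x j)) (B H (x j)) hjmax
    rwa [nsmul_eq_mul, hcard] at this
  refine h.g3_num L k d c N ρ s n M hk hk2 hN hc hsum hLL hHL hHH i j _
    (orbital_preconnected (G := G) hji.symm) ?_ (x j) K hx' (hxi j hji) (hxj j hji) hρ0 hρ hs0 hq1
    hs hns hM hKL hKK hKH (hlef j hji)
  intro a b hab
  rw [SimpleGraph.fromRel_adj] at hab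
  rcases hab.2 with ⟨g, rfl, rfl⟩ | ⟨g, rfl, rfl⟩
  · exact (hG g i j).le
  · rw [h.symm]; exact (hG g i j).le

section Trace

variable {U : Type*} [AddCommGroup U] [Module ℝ U]

/-- The trace is computed by any family `(e s, f s)` representing the inverse of the form. -/
theorem trace_eq_sum_dual [FiniteDimensional ℝ U] (b : LinearMap.BilinForm ℝ U) {σ : Type*}
    [Fintype σ] (e f : σ → U) (hef : ∀ u, ∑ s, b u (f s) • e s = u) (A : U →ₗ[ℝ] U) :
    LinearMap.trace ℝ U A = ∑ s, b (A (e s)) (f s) := by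
  have hA : A = ∑ s, (b.flip (f s)).smulRight (A (e s)) := by
    ext u
    conv_lhs => rw [← hef u]
    simp [map_sum, LinearMap.sum_apply]
  conv_lhs => rw [hA]
  rw [map_sum]
  refine Finset.sum_congr rfl fun s _ => ?_
  rw [LinearMap.trace_smulRight]
  simp

/-- Trace bound from an orthogonal basis: if `(P u - Q u)²` has the sign of `u²` (or vanishes) on
each basis vector then `∑ B (P e) (Q f) ≤ N dim U`. -/
theorem sum_le_of_orthogonal_basis (hB : ∀ u v, B u v = B v u) (b : LinearMap.BilinForm ℝ U)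
    {τ : Type*} [Fintype τ] (v : Basis τ ℝ U) (hv : ∀ s t, s ≠ t → b (v s) (v t) = 0)
    (hv0 : ∀ s, b (v s) (v s) ≠ 0) (P Q : U →ₗ[ℝ] V) (N : ℝ)
    (hP : ∀ u, B (P u) (P u) = N * b u u) (hQ : ∀ u, B (Q u) (Q u) = N * b u u)
    (hsign : ∀ s, 0 ≤ B (P (v s) - Q (v s)) (P (v s) - Q (v s)) / b (v s) (v s))
    (A : U →ₗ[ℝ] U) (hA : ∀ u w, b (A u) w = B (P u) (Q w)) :
    LinearMap.trace ℝ U A ≤ N * Fintype.card τ := by
  classical
  have := Module.Finite.of_basis v
  have hef : ∀ u, ∑ s, b u ((b (v s) (v s))⁻¹ • v s) • v s = u := by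
    intro u
    conv_rhs => rw [← v.sum_repr u]
    refine Finset.sum_congr rfl fun s _ => ?_
    congr 1
    conv_lhs => rw [← v.sum_repr u]
    rw [map_sum, LinearMap.sum_apply, Finset.sum_eq_single s]
    · have := hv0 s
      simp only [map_smul, LinearMap.smul_apply, smul_eq_mul]; field_simp
    · intro t _ hts
      simp [hv t s hts]
    · simp
  rw [trace_eq_sum_dual b v _ hef A]
  have : ∀ s, b (A (v s)) ((b (v s) (v s))⁻¹ • v s) ≤ N := by
    intro s
    have h1 := hsign s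
    have h0 := hv0 s
    have h2 : B (P (v s) - Q (v s)) (P (v s) - Q (v s)) / b (v s) (v s)
        = 2 * N - 2 * ((b (v s) (v s))⁻¹ * B (P (v s)) (Q (v s))) := by
      simp only [map_sub, LinearMap.sub_apply, hP, hQ, hB (Q (v s)) (P (v s))]
      field_simp; ring
    rw [map_smul, smul_eq_mul, hA]
    linarith
  calc ∑ s, b (A (v s)) ((b (v s) (v s))⁻¹ • v s) ≤ ∑ _s : τ, N := Finset.sum_le_sum fun s _ => this s
    _ = N * Fintype.card τ := by simp [mul_comm]

/-- **Lefschetz trace bound.**  `U = Up ⊕ Um` orthogonal, `b` positive definite on `Up`, negative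
definite on `Um`; `P, Q` multiply the form by `N`; `(P u - Q u)² ≥ 0` on `Up`, `≤ 0` on `Um`. -/
theorem trace_bound [FiniteDimensional ℝ U] (hB : ∀ u v, B u v = B v u)
    (b : LinearMap.BilinForm ℝ U) (hb : ∀ u v, b u v = b v u) (Up Um : Submodule ℝ U)
    (hc : IsCompl Up Um) (horth : ∀ u ∈ Up, ∀ w ∈ Um, b u w = 0)
    (hp : ∀ u ∈ Up, u ≠ 0 → 0 < b u u) (hm : ∀ u ∈ Um, u ≠ 0 → b u u < 0)
    (P Q : U →ₗ[ℝ] V) (N : ℝ)
    (hP : ∀ u, B (P u) (P u) = N * b u u) (hQ : ∀ u, B (Q u) (Q u) = N * b u u)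
    (hsp : ∀ u ∈ Up, 0 ≤ B (P u - Q u) (P u - Q u))
    (hsm : ∀ u ∈ Um, B (P u - Q u) (P u - Q u) ≤ 0)
    (A : U →ₗ[ℝ] U) (hA : ∀ u w, b (A u) w = B (P u) (Q w)) :
    LinearMap.trace ℝ U A ≤ N * finrank ℝ U := by
  classical
  obtain ⟨vp, hvp⟩ := LinearMap.BilinForm.exists_orthogonal_basis
    (B := b.restrict Up) (by constructor; intro x y; exact hb x y)
  obtain ⟨vm, hvm⟩ := LinearMap.BilinForm.exists_orthogonal_basis
    (B := b.restrict Um) (by constructor; intro x y; exact hb x y)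
  let v := (vp.prod vm).map (Submodule.prodEquivOfIsCompl Up Um hc)
  have hvl : ∀ s, v (Sum.inl s) = vp s := by
    intro s; simp [v, Basis.prod_apply]
  have hvr : ∀ s, v (Sum.inr s) = vm s := by
    intro s; simp [v, Basis.prod_apply]
  have hpos : ∀ s, 0 < b (vp s) (vp s) := fun s =>
    hp _ (vp s).2 (by simpa using vp.ne_zero s)
  have hneg : ∀ s, b (vm s) (vm s) < 0 := fun s =>
    hm _ (vm s).2 (by simpa using vm.ne_zero s)
  have key := sum_le_of_orthogonal_basis hB b v ?_ ?_ P Q N hP hQ ?_ A hA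
  · rwa [← finrank_eq_card_basis v] at key
  · rintro (s | s) (t | t) hst
    · rw [hvl, hvl]; exact hvp (fun h => hst (congrArg _ h))
    · rw [hvl, hvr]; exact horth _ (vp s).2 _ (vm t).2
    · rw [hvr, hvl, hb]; exact horth _ (vp t).2 _ (vm s).2
    · rw [hvr, hvr]; exact hvm (fun h => hst (congrArg _ h))
  · rintro (s | s)
    · rw [hvl]; exact (hpos s).ne'
    · rw [hvr]; exact (hneg s).ne
  · rintro (s | s)
    · rw [hvl]; exact div_nonneg (hsp _ (vp s).2) (hpos s).le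
    · rw [hvr]; exact div_nonneg_of_nonpos (hsm _ (vm s).2) (hneg s).le

/-- The same bound for the Künneth sum `∑ B (P e_s) (Q f_s)`, `∑ e_s ⊗ f_s` the inverse form. -/
theorem kunneth_bound [FiniteDimensional ℝ U] (hB : ∀ u v, B u v = B v u)
    (b : LinearMap.BilinForm ℝ U) (hb : ∀ u v, b u v = b v u) (Up Um : Submodule ℝ U)
    (hc : IsCompl Up Um) (horth : ∀ u ∈ Up, ∀ w ∈ Um, b u w = 0)
    (hp : ∀ u ∈ Up, u ≠ 0 → 0 < b u u) (hm : ∀ u ∈ Um, u ≠ 0 → b u u < 0)
    (P Q : U →ₗ[ℝ] V) (N : ℝ)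
    (hP : ∀ u, B (P u) (P u) = N * b u u) (hQ : ∀ u, B (Q u) (Q u) = N * b u u)
    (hsp : ∀ u ∈ Up, 0 ≤ B (P u - Q u) (P u - Q u))
    (hsm : ∀ u ∈ Um, B (P u - Q u) (P u - Q u) ≤ 0)
    {σ : Type*} [Fintype σ] (e f : σ → U) (hef : ∀ u, ∑ s, b u (f s) • e s = u) :
    ∑ s, B (P (e s)) (Q (f s)) ≤ N * finrank ℝ U := by
  let A : U →ₗ[ℝ] U := ∑ s, ((B.flip (Q (e s))) ∘ₗ P).smulRight (f s)
  have hA : ∀ u w, b (A u) w = B (P u) (Q w) := by
    intro u w
    conv_rhs => rw [← hef w]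
    simp only [A, LinearMap.sum_apply, LinearMap.smulRight_apply, map_sum, map_smul,
      LinearMap.smul_apply, smul_eq_mul, LinearMap.comp_apply]
    refine Finset.sum_congr rfl fun s _ => ?_
    rw [hb (f s) w, mul_comm]; rfl
  have key := trace_bound hB b hb Up Um hc horth hp hm P Q N hP hQ hsp hsm A hA
  rw [trace_eq_sum_dual b e f hef A] at key
  simpa only [hA] using key

end Trace

end Crest.Agent.X262.G3Num
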